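import Vale.Agent.P223.H509.KE
import Vale.Agent.P223.H959.All
import Vale.Agent.P223.H959.L2
import Vale.Agent.P223.H209.Leb
import Vale.Agent.P223.H209.G1
import Vale.Agent.P223.H209.G3
import Vale.Agent.P272.TOP.Q1

/-!
# P223: the inequality for all Hermitian metrics on compact hyperbolic Kähler manifolds and on the
# closed complex manifolds over them (coverings, holomorphic maps)
-/

namespace Vale.Agent.Results.P223.HyperbolicKahler

open scoped ContDiff Manifold
open MeasureTheory Vale.Agent Vale.Agent.P223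

/-- Let `X` be a compact connected complex manifold of dimension `m ≥ 2` with a Kähler metric, and
suppose that `X` is hyperbolic: every holomorphic map from `ℂ` to `X` is constant. Nothing is
assumed on the canonical bundle. Let `n = 2m` and `κ = n - 2 + √n`. For every smooth Hermitian
metric `φ` on `K_X` let `V = 2^m ∫ det (i∂∂̄φ)`, a positive constant times `c₁(K_X)^m`. Then
(1) `V > 0` and `‖X‖ ≤ κ^n V`;
(2) there is a Kähler-Einstein metric `g₀` on `X`, `Ric(g₀) = -g₀`, with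
`∫ (Scal⁻ / n)^(n/2) = V`.
For every closed complex manifold `Y` of dimension `m`, every Hermitian metric `g` on `Y` and every
map `f : Y → X`:
(3) if `f` is a holomorphic map of degree at least `d` (for instance the identity map of `Y = X`, a
covering with `d` sheets, a branched covering or a blow-up) then
`d V ≤ ∫ (Scal_g⁻ / n)^(n/2)` and `d ‖X‖ ≤ κ^n ∫ (Scal_g⁻ / n)^(n/2)`;
(4) if `f` is a covering with `d` sheets and `Y` has the lifted atlas (for instance `Y = X`) then
`‖Y‖ ≤ κ^n ∫ (Scal_g⁻ / n)^(n/2)`. -/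
theorem result (m : ℕ) (hm : 2 ≤ m) (X : Type) [TopologicalSpace X] [T2Space X] [CompactSpace X]
    [ConnectedSpace X] [MeasurableSpace X] [BorelSpace X] [ChartedSpace (P272.K.Cm m) X]
    [IsManifold 𝓘(ℂ, P272.K.Cm m) ω X] (hX : P272.K.BrodyHyperbolic m X)
    (w : P272.K.Chart m X → P272.K.Cm m → Matrix (Fin m) (Fin m) ℂ) (hw : P272.K.IsKahler w) :
    K.Atl (H959.stdJ m) (H959.realAtlas m X) ∧
    ∀ φ : P272.K.Chart m X → P272.K.Cm m → ℝ, P272.K.IsCanonicalMetric φ → ∃ I : ℝ, 0 < I ∧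
      P272.K.IsIntegral (fun e z => (P272.K.cHess (φ e) z).det.re) I ∧
      K.sv (H959.realAtlas m X) ≤
        ENNReal.ofReal (J.kap (m + m) ^ (m + m)) * ENNReal.ofReal (2 ^ m * I) ∧
      (∃ g0 μ0, K.Herm (H959.stdJ m) (H959.realAtlas m X) g0 ∧
        K.Kah (H959.stdJ m) (H959.realAtlas m X) g0 ∧
        (∀ a p x, K.At (H959.realAtlas m X a) p x → K.ric (g0 a) x = -g0 a x) ∧
        K.Vol (H959.realAtlas m X) g0 μ0 ∧
        K.I (H959.realAtlas m X) g0 μ0 = ENNReal.ofReal (2 ^ m * I)) ∧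
      ∀ (d : ℕ) (Y : Type) [TopologicalSpace Y] [T2Space Y] [CompactSpace Y] [MeasurableSpace Y]
      [BorelSpace Y] (c' : Y → K.Ch (m + m) Y), K.Atl (H959.stdJ m) c' →
      ∀ (g : Y → (Fin (m + m) → ℝ) → Matrix (Fin (m + m)) (Fin (m + m)) ℝ),
      K.Herm (H959.stdJ m) c' g → ∀ μ : Measure Y, K.Vol c' g μ → ∀ f : Y → X,
      (H959.Hol (H959.stdJ m) c' (H959.realAtlas m X) f →
        H959.DegGe c' (H959.realAtlas m X) f d →
        d * ENNReal.ofReal (2 ^ m * I) ≤ K.I c' g μ ∧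
        d * K.sv (H959.realAtlas m X) ≤
          ENNReal.ofReal (J.kap (m + m) ^ (m + m)) * K.I c' g μ) ∧
      (IsCoveringMap f → (∀ p, (f ⁻¹' {p}).encard = d) →
        (∀ q p x, K.At (c' q) p x → K.At (H959.realAtlas m X (f q)) (f p) x) →
        K.sv c' ≤ ENNReal.ofReal (J.kap (m + m) ^ (m + m)) * K.I c' g μ) := by
  have hTot := H959.specTot_of H209.specLeb
  obtain ⟨φ1, hφ1, hp1⟩ := P272.TOP.xam m (by omega) X hX w hw
  have hnef : P272.K.NefCanonical w 0 := H509.nef_of_pos hw hφ1 hp1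
  have hkap : 0 ≤ J.kap (m + m) := by
    have h1 : (4 : ℝ) ≤ ((m + m : ℕ) : ℝ) := by exact_mod_cast (by omega : 4 ≤ m + m)
    have h2 : 0 ≤ √((m + m : ℕ) : ℝ) := Real.sqrt_nonneg _
    unfold J.kap
    linarith only [h1, h2]
  refine ⟨H959.blocks.atl m X, fun φ hφ => ?_⟩
  obtain ⟨I, -, h1, h2⟩ := H959.sv_le_adjoint H959.blocks hTot hm hw
    H959.closed_zero.isClosedForm (H959.nefForm_zero hw) (H959.nefAdjoint_zero hnef) hφ
  have h1' : P272.K.IsIntegral (fun e z => (P272.K.cHess (φ e) z).det.re) I := by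
    simpa only [add_zero] using h1
  obtain ⟨h0, hke⟩ := H509.ke_metric H959.blocks hTot (by omega) hw hφ1 hp1 hφ h1'
  refine ⟨I, h0, h1', ?_, hke, ?_⟩
  · rwa [ENNReal.ofReal_mul (pow_nonneg hkap _)] at h2
  · intro d Y _ _ _ _ _ c' hY g hg μ hμ f
    exact ⟨fun hf hd => ⟨H959.sharp H959.blocks hTot H209.specArea H209.specKHol hm hw hnef hφ
      h1' hY hf hd hg hμ,
      H959.nef_holo H959.blocks H209.specArea H209.specKHol hm hw hnef hY hf hd hg hμ⟩,
      fun hf hd hl => H959.nef_hermitian H959.blocks hm hw hnef hY hf hd hl hg hμ⟩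

end Vale.Agent.Results.P223.HyperbolicKahler
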